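import Vale.Agent.P224.R2.H627.PolDef

/-!
Polynomial inequalities for the scalar conditions of the defect (generated, checked by the kernel).
-/

namespace Vale.Agent.P224.R2.H627

set_option linter.unusedSimpArgs false

noncomputable def Q3 (s : ℝ) : ℝ :=
  16 / 35 - 3 / 35 * s - 22 / 35 * s ^ 2 - 6 / 35 * s ^ 3 + 2 / 7 * s ^ 4 + 1 / 7 * s ^ 5
noncomputable def Q5 (s : ℝ) : ℝ :=
  256 / 693 - 181 / 693 * s - 206 / 231 * s ^ 2 + 100 / 693 * s ^ 3 + 818 / 693 * s ^ 4 + 50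
      / 231 * s ^ 5 - 74 / 99 * s ^ 6 - 28 / 99 * s ^ 7 + 2 / 11 * s ^ 8 + 1 / 11 * s ^ 9
noncomputable def Q6 (s : ℝ) : ℝ :=
  1024 / 3003 - 955 / 3003 * s - 978 / 1001 * s ^ 2 + 1093 / 3003 * s ^ 3 + 5120 / 3003 * s
      ^ 4 + 46 / 1001 * s ^ 5 - 692 / 429 * s ^ 6 - 178 / 429 * s ^ 7 + 112 / 143 * s ^ 8 + 45 /
      143 * s ^ 9 - 2 / 13 * s ^ 10 - 1 / 13 * s ^ 11

/-- lower bound of W, with tolerance -/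
noncomputable def vW (s t : ℝ) : ℝ :=
  (1 + 1 / 8 * t - 39 / 64 * t ^ 2)
    + (3 / 8 * t - 69 / 200 * t ^ 2) * (1 - s ^ 2) ^ 2
    + (131 / 200 * t ^ 2) * (1 - s ^ 2) ^ 4
    + (11 / 100 * t ^ 2) * (1 - s ^ 2) ^ 6
/-- upper bound of E, with tolerance -/
noncomputable def vU (s t : ℝ) : ℝ :=
  (1 - 7 / 8 * t + 18 / 5 * t ^ 2) * (1 - s ^ 2)
    + (-(2 * t) - 1639 / 100 * t ^ 2) * (1 - s ^ 2) ^ 2
    + (35 / 8 * t + 6331 / 100 * t ^ 2) * (1 - s ^ 2) ^ 3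
    + (-(6089 / 50 * t ^ 2)) * (1 - s ^ 2) ^ 4
    + (7417 / 100 * t ^ 2) * (1 - s ^ 2) ^ 5
/-- lower bound of E, with tolerance -/
noncomputable def vL (s t : ℝ) : ℝ :=
  (1 - 7 / 8 * t - 21 / 5 * t ^ 2) * (1 - s ^ 2)
    + (-(2 * t) + 2867 / 50 * t ^ 2) * (1 - s ^ 2) ^ 2
    + (35 / 8 * t - 25269 / 100 * t ^ 2) * (1 - s ^ 2) ^ 3
    + (9783 / 20 * t ^ 2) * (1 - s ^ 2) ^ 4
    + (-(23651 / 50 * t ^ 2)) * (1 - s ^ 2) ^ 5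
    + (9243 / 50 * t ^ 2) * (1 - s ^ 2) ^ 6
/-- upper bound of `√2 R / (1 - s) ^ 2`, with tolerance -/
noncomputable def uU (s t : ℝ) : ℝ :=
  (1 - 7 / 8 * t + 18 / 5 * t ^ 2) * Q1 s
    + (-(2 * t) - 1639 / 100 * t ^ 2) * Q2 s
    + (35 / 8 * t + 6331 / 100 * t ^ 2) * Q3 s
    + (-(6089 / 50 * t ^ 2)) * Q4 s
    + (7417 / 100 * t ^ 2) * Q5 s
/-- lower bound of `√2 R / (1 - s) ^ 2`, with tolerance -/
noncomputable def uL (s t : ℝ) : ℝ :=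
  (1 - 7 / 8 * t - 21 / 5 * t ^ 2) * Q1 s
    + (-(2 * t) + 2867 / 50 * t ^ 2) * Q2 s
    + (35 / 8 * t - 25269 / 100 * t ^ 2) * Q3 s
    + (9783 / 20 * t ^ 2) * Q4 s
    + (-(23651 / 50 * t ^ 2)) * Q5 s
    + (9243 / 50 * t ^ 2) * Q6 s

noncomputable def dU (l s t : ℝ) : ℝ := 2 * (1 + s) * (s * vW s t + (1 - s) ^ 2 * uU s t)
  - l * ((1 + t / 2) * (1 + t)) * s ^ 2 * (1 - s) * uU s t
noncomputable def dE (s t : ℝ) : ℝ := vL s t * (2 - s ^ 2) ^ 2 - 31 / 10 * s ^ 4 * vU s t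
noncomputable def dA (l s t : ℝ) : ℝ := (2 - s ^ 2) ^ 2 * dU l s t
  + (1 + s) * (1 + 3 * t / 2) * (s ^ 3 * dE s t)
noncomputable def dB (s t : ℝ) : ℝ := (1 + s) * (1 + 3 * t / 2)
  * ((2 - s ^ 2) * s * dE s t - 4 * (2 - s ^ 2) ^ 2 * ((1 - s) ^ 2 * uU s t))
noncomputable def dV (l s t : ℝ) : ℝ := 4 * (1 + s) ^ 2 * (s * vW s t + (1 - s) ^ 2 * uU s t)
  - l * ((1 + t / 2) * (1 + t)) * s ^ 2 * (2 - s ^ 2) * uU s t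
noncomputable def dA4 (l s t : ℝ) : ℝ := (2 - s ^ 2) ^ 2 * dV l s t
  + 2 * (1 + s) ^ 2 * (1 + 3 * t / 2) * (s ^ 3 * dE s t)
noncomputable def dB4 (s t : ℝ) : ℝ := 2 * (1 + s) ^ 2 * (1 + 3 * t / 2)
  * ((2 - s ^ 2) * s * dE s t - 4 * (2 - s ^ 2) ^ 2 * ((1 - s) ^ 2 * uU s t))
noncomputable def dF1 (s t : ℝ) : ℝ := 2 * ((1 - s) ^ 2 * uL s t) * (2 - s ^ 2) ^ 2
  - ((2 - s ^ 2) ^ 2 - 31 / 20 * s ^ 4) * (s * (1 - s ^ 2) * vU s t)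
noncomputable def dF2 (s t : ℝ) : ℝ := 2 * ((1 - s) ^ 2 * uL s t) * (2 - s ^ 2) ^ 2
  - s * (1 - s ^ 2) * ((2 - s ^ 2) ^ 2 * vU s t - 31 / 20 * s ^ 4 * vL s t)

end Vale.Agent.P224.R2.H627
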