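import Vale.Agent.P224.R2.H627.Chk

/-!
Polynomial inequalities for the bracket of the defect (generated, checked by the kernel).
-/

namespace Vale.Agent.P224.R2.H627

/-- `int_s^1 (1 - x ^ 2) ^ k / (1 - s) ^ 2`, `k = 1, 2, 4` -/
noncomputable def Q1 (s : ℝ) : ℝ := (2 + s) / 3
noncomputable def Q2 (s : ℝ) : ℝ := (1 - s) * (8 + 9 * s + 3 * s ^ 2) / 15
noncomputable def Q4 (s : ℝ) : ℝ := 128 / 315 - 59 / 315 * s - 82 / 105 * s ^ 2 - 13 / 315 * s ^ 3 + 44 / 63 * s ^ 4 + 5 / 21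
      * s ^ 5 - 2 / 9 * s ^ 6 - 1 / 9 * s ^ 7

/-- lower bound of W -/
noncomputable def wW (s t : ℝ) : ℝ := (997 / 1000) * (1 + (1 / 9 + 27 / 80 * (1 - s ^ 2) ^ 2) * t)
/-- lower bound of E -/
noncomputable def wL (s t : ℝ) : ℝ := (997 / 1000) * (1 - s ^ 2 + (-(107 / 100) * (1 - s ^ 2)
  - 95 / 100 * (1 - s ^ 2) ^ 2 + 351 / 100 * (1 - s ^ 2) ^ 4) * t)
/-- upper bound of E -/
noncomputable def wU (s t : ℝ) : ℝ := (1003 / 1000) * (1 - s ^ 2 + (-(69 / 100) * (1 - s ^ 2)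
  - 43 / 100 * (1 - s ^ 2) ^ 2 + 289 / 100 * (1 - s ^ 2) ^ 4) * t)
/-- upper bound of `√2 R / (1 - s) ^ 2` -/
noncomputable def kU (s t : ℝ) : ℝ := (1003 / 1000) * (Q1 s + (-(69 / 100) * Q1 s
  - 43 / 100 * Q2 s + 289 / 100 * Q4 s) * t)
/-- lower bound of `√2 R / (1 - s) ^ 2` -/
noncomputable def kL (s t : ℝ) : ℝ := (997 / 1000) * (Q1 s + (-(107 / 100) * Q1 s
  - 95 / 100 * Q2 s + 351 / 100 * Q4 s) * t)

noncomputable def fU (s t : ℝ) : ℝ := 2 * (1 + s) * (s * wW s t + (1 - s) ^ 2 * kU s t)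
  - 89 / 5 * ((1 + t / 2) * (1 + t)) * s ^ 2 * (1 - s) * kU s t
noncomputable def fA1 (s t : ℝ) : ℝ := fU s t + 2 * (1 + s) * (1 + t / 2) * (s ^ 3 * wL s t / 2)
noncomputable def fB1 (s t : ℝ) : ℝ := 2 * (1 + s) * (1 + t / 2)
  * (s * (2 - s ^ 2) * wL s t / 2 - 2 * ((1 - s) ^ 2 * kU s t))
noncomputable def fA2 (s t : ℝ) : ℝ := (2 - s ^ 2) * fU s t
  + 4 * (1 + s) * (1 + t / 2) * ((1 - s) ^ 2 * kU s t) * s ^ 2
noncomputable def fB2 (s t : ℝ) : ℝ := (2 - s ^ 2) * (fU s t + 2 * (1 + s) * (1 + t / 2)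
  * (s * (1 - s ^ 2) * wL s t - 2 * ((1 - s) ^ 2 * kU s t)))
noncomputable def fA4 (s t : ℝ) : ℝ := fU s t + 2 * (1 + s) * (1 + t / 2) * (s ^ 3 * wU s t / 2)
noncomputable def fB4 (s t : ℝ) : ℝ := 2 * (1 + s) * (1 + t / 2)
  * (2 * ((1 - s) ^ 2 * kU s t) - s * (2 - s ^ 2) * wU s t / 2)
/-- upper and lower bound of T -/
noncomputable def Tu (s : ℝ) : ℝ :=
  s * (70711 / 100000 + 17678 / 100000 * s ^ 2 + 1162 / 10000 * s ^ 4)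
noncomputable def Tl (s : ℝ) : ℝ :=
  s * (7071 / 10000 + 1767 / 10000 * s ^ 2 + 66 / 1000 * s ^ 4)
noncomputable def fP0 (s t : ℝ) : ℝ :=
  2 * ((1 - s) ^ 2 * kL s t) - (1 - Tl s) * (s * (2 - s ^ 2) * wU s t / 2)
noncomputable def fP5 (s t : ℝ) : ℝ := 2 * (1 + s) * s * wW s t
  - 89 / 5 * ((1 + t / 2) * (1 + t)) * s ^ 2 * (1 - s) * kU s t
  - 2 * (1 + s) * (1 + t / 2) * (s ^ 3 * wU s t / 2 + Tu s * (s * (2 - s ^ 2) * wU s t / 2))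

end Vale.Agent.P224.R2.H627
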